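import Vale.Agent.P183CH1.Lie
import Mathlib.Algebra.Lie.Normalizer
import Mathlib.Algebra.Squarefree.Basic
import Mathlib.RingTheory.PrincipalIdealDomain
import Mathlib.Data.Nat.Prime.Int

/-!
The elements `n_i`, existence and uniqueness of root triples, the root system.
-/

set_option autoImplicit false
set_option linter.all false

namespace Vale.Agent.P183CH

open Matrix Finset

attribute [local instance 100] LieRing.ofAssociativeRing

section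
variable {n : ℕ} {k : Type} [CommRing k]

/-- conjugation -/
def Ad (g : GL (Fin n) k) : Matrix (Fin n) (Fin n) k →ₗ[k] Matrix (Fin n) (Fin n) k :=
  LinearMap.mulLeftRight k (g.1, g⁻¹.1)

lemma Ad_apply (g : GL (Fin n) k) (M : Matrix (Fin n) (Fin n) k) : Ad g M = g.1 * M * g⁻¹.1 := rfl

lemma Ad_mul (g h : GL (Fin n) k) (M : Matrix (Fin n) (Fin n) k) : Ad (g * h) M = Ad g (Ad h M) := by
  simp only [Ad_apply, _root_.mul_inv_rev, Units.val_mul, mul_assoc]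

lemma Ad_inv (g : GL (Fin n) k) (M : Matrix (Fin n) (Fin n) k) : Ad g (Ad g⁻¹ M) = M := by
  rw [← Ad_mul, mul_inv_cancel, Ad_apply, inv_one, Units.val_one, one_mul, mul_one]

lemma Ad_mul' (g : GL (Fin n) k) (M N : Matrix (Fin n) (Fin n) k) :
    Ad g (M * N) = Ad g M * Ad g N := by
  simp only [Ad_apply, mul_assoc, Units.inv_mul_cancel_left]

lemma tr_Ad (g : GL (Fin n) k) (M : Matrix (Fin n) (Fin n) k) : trace (Ad g M) = trace M := by
  rw [Ad_apply, trace_mul_comm, Units.inv_mul_cancel_left]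

variable (k) in
/-- integer units over `k` -/
def mp : GL (Fin n) ℤ →* GL (Fin n) k := Units.map (ct k).toMonoidHom

lemma ct_Ad (N : GL (Fin n) ℤ) (M : Matrix (Fin n) (Fin n) ℤ) :
    ct k (Ad N M) = Ad (mp k N) (ct k M) := by
  rw [Ad_apply, map_mul, map_mul]
  rfl

variable {E : ℕ → Matrix (Fin n) (Fin n) ℤ}

lemma DP.mp (h : DP E) (t : ℤ) : mp k (h.exU t) = h.exU (t : k) := Units.ext (map_ex _ E t)

lemma DP.inv (h : DP E) (t : k) : (h.exU t)⁻¹ = h.exU (-t) := Units.ext rfl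

lemma DP.Ad_eq (h : DP E) (t : ℂ) (Y : Matrix (Fin n) (Fin n) ℂ) : Ad (h.exU t) Y =
    IsNilpotent.exp (t • ct ℂ (E 1)) * Y * IsNilpotent.exp (-(t • ct ℂ (E 1))) := by
  rw [← neg_smul, ← h.ex_eq, ← h.ex_eq]
  rfl

lemma DP.conj (h : DP E) (N : GL (Fin n) ℤ) : DP fun m => Ad N (E m) :=
  ⟨fun m => by rw [← map_nsmul, ← h.pow]; exact Units.conj_pow N _ m,
    (Units.conj_pow N _ n).trans (by rw [h.nil, mul_zero, zero_mul])⟩

lemma DP.exU_conj (h : DP E) (N : GL (Fin n) ℤ) (t : k) :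
    (h.conj N).exU t = P183CH.mp k N * h.exU t * (P183CH.mp k N)⁻¹ := by
  refine Units.ext (Eq.symm ?_)
  show Ad (P183CH.mp k N) (ex E t) = ex _ t
  simp only [ex, map_sum, map_smul, ct_Ad]

lemma Prim.conj {M : Matrix (Fin n) (Fin n) ℤ} (h : Prim M) (N : GL (Fin n) ℤ) : Prim (Ad N M) :=
  h.elim fun Λ h => ⟨Ad N Λ, by rw [← Ad_mul', tr_Ad, h]⟩

lemma sl2_step {e f h : Matrix (Fin n) (Fin n) ℂ} (he : IsNilpotent e) (h1 : ⁅e, f⁆ = h)
    (h2 : ⁅h, e⁆ = (2 : ℂ) • e) {X : Matrix (Fin n) (Fin n) ℂ → Matrix (Fin n) (Fin n) ℂ}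
    (hX : ∀ Y, X Y = IsNilpotent.exp e * Y * IsNilpotent.exp (-e)) :
    X e = e ∧ X f = f + h - e ∧ ∀ H (a : ℂ), ⁅H, e⁆ = a • e → X H = H - a • e := by
  refine ⟨by simp [hX, conj_two he], ?_, fun H a h3 => ?_⟩
  · rw [hX, conj_two he (by simp [h1, ← lie_skew e h, h2]), h1, ← lie_skew e h, h2]
    module
  · rw [hX, conj_two he (by simp [← lie_skew e H, h3])]
    simp [← lie_skew e H, h3, sub_eq_add_neg]

end

namespace Chev

variable {D : Chev} {k : Type} [CommRing k] {γ δ : D.Q} {i j : Fin D.r} {E F E' F' : ℕ → D.Mat ℤ}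

lemma Ad_g (h : DP E) (hg : ct ℂ (E 1) ∈ D.g) (t : ℂ) {M : D.Mat ℂ} (hM : M ∈ D.g) :
    Ad (h.exU t) M ∈ D.g :=
  h.Ad_eq t M ▸ conj_mem ⟨_, h.nilC t⟩ _ (fun _ hY => lie_mem_g (D.g.smul_mem t hg) hY) hM

/-- the elements `n_i` -/
def nn (i : Fin D.r) : GL (Fin D.n) ℤ := (dp_e i).exU 1 * (dp_f i).exU (-1) * (dp_e i).exU 1

lemma mp_nn (i : Fin D.r) : mp k (nn i) = (dp_e i).exU 1 * (dp_f i).exU (-1) * (dp_e i).exU (1 : k) := by
  simp only [nn, map_mul, DP.mp, Int.cast_one, Int.cast_neg]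

lemma Ad_nn (i : Fin D.r) : Ad (nn i) (D.E i 1) = -D.F i 1 ∧
    ∀ j, Ad (nn i) (D.hm j) = D.hm j - D.A i j • D.hm i := by
  have a1 : ∀ j, ⁅ct ℂ (D.hm j), ct ℂ (D.E i 1)⁆ = (D.A i j : ℂ) • ct ℂ (D.E i 1) := fun j => by
    rw [← ct_lie, he, map_zsmul, Int.cast_smul_eq_zsmul]
  have a2 : ∀ j, ⁅ct ℂ (D.hm j), -ct ℂ (D.F i 1)⁆ = -(D.A i j : ℂ) • -ct ℂ (D.F i 1) := fun j => by
    rw [lie_neg, ← ct_lie, hf, map_zsmul, ← Int.cast_neg, Int.cast_smul_eq_zsmul, smul_neg]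
  have a3 : ⁅ct ℂ (D.E i 1), ct ℂ (D.F i 1)⁆ = ct ℂ (D.hm i) := by rw [← ct_lie, ef]
  have a4 := a1 i
  have a5 := a2 i
  rw [diag, Int.cast_ofNat] at a4 a5
  obtain ⟨x1, x2, x3⟩ := sl2_step (X := Ad ((dp_e i).exU 1))
    ⟨_, by simpa using (dp_e i).nilC (1 : ℂ)⟩ a3 a4 fun Y => by rw [DP.Ad_eq, one_smul]
  obtain ⟨-, y2, y3⟩ := sl2_step (X := Ad ((dp_f i).exU (-1))) (e := -ct ℂ (D.F i 1))
    (f := -ct ℂ (D.E i 1)) (h := -ct ℂ (D.hm i)) ⟨_, by simpa using (dp_f i).nilC (-1 : ℂ)⟩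
    (by rw [neg_lie, lie_neg, neg_neg, ← lie_skew, a3]) (by rw [neg_lie, a5, neg_smul, neg_neg])
    fun Y => by rw [DP.Ad_eq, neg_one_smul]
  rw [map_neg, neg_eq_iff_eq_neg] at y2
  refine ⟨ct_inj (k := ℂ) ?_, fun j => ct_inj (k := ℂ) ?_⟩
  · rw [ct_Ad, mp_nn, Ad_mul, Ad_mul, x1, y2]
    simp only [map_neg, map_add, map_sub, x1, x2, x3 _ _ a4]
    module
  · rw [ct_Ad, mp_nn, Ad_mul, Ad_mul, x3 _ _ (a1 j), map_sub, map_smul, y2, y3 _ _ (a2 j),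
      (ct ℂ).map_sub, map_zsmul (ct ℂ), ← Int.cast_smul_eq_zsmul ℂ]
    simp only [map_neg, map_add, map_sub, map_smul, x1, x2, x3 _ _ a4, x3 _ _ (a1 j)]
    module

lemma sw_apply (i j : Fin D.r) (w : D.Q) : D.sw i w j = w j - w i * D.A i j := by simp [sw, α_pr]

lemma sw_sw (i : Fin D.r) (w : D.Q) : D.sw i (D.sw i w) = w := by
  ext j
  simp only [sw_apply, diag]
  ring

lemma sw_add (i : Fin D.r) (w γ : D.Q) : D.sw i (w + γ ᵥ* D.A) = D.sw i w + D.s i γ ᵥ* D.A := by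
  simp only [sw, s, sub_vecMul, smul_vecMul, Pi.add_apply]
  module

lemma s_s (i : Fin D.r) (γ : D.Q) : D.s i (D.s i γ) = γ := pr_inj (add_left_cancel (a := D.sw i (D.sw i 0))
  (by rw [← sw_add, ← sw_add, sw_sw, sw_sw]))

lemma s_neg (i : Fin D.r) (γ : D.Q) : D.s i (-γ) = -D.s i γ := by
  simp only [s, neg_vecMul, Pi.neg_apply]
  module

lemma s_α (i : Fin D.r) : D.s i (D.α i) = -D.α i := by
  rw [s, α_pr, diag]
  module

variable (D) in
/-- integer units that act as the reflection `s_i` -/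
structure Nice (i : Fin D.r) (N : GL (Fin D.n) ℤ) : Prop where
  s1 : N.1 ∈ Sp ℤ fun a b => D.wt a = D.sw i (D.wt b)
  s2 : N⁻¹.1 ∈ Sp ℤ fun a b => D.wt a = D.sw i (D.wt b)
  g1 : ∀ M ∈ D.g, Ad (mp ℂ N) M ∈ D.g
  g2 : ∀ M ∈ D.g, Ad (mp ℂ N)⁻¹ M ∈ D.g
  x : ∀ (k : Type) [Field k], mp k N ∈ D.grp k

lemma x_e (k : Type) [Field k] (i : Fin D.r) (t : k) : (dp_e i).exU t ∈ D.grp k :=
  Subgroup.subset_closure ⟨i, t, Or.inl rfl⟩

lemma x_f (k : Type) [Field k] (i : Fin D.r) (t : k) : (dp_f i).exU t ∈ D.grp k :=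
  Subgroup.subset_closure ⟨i, t, Or.inr rfl⟩

lemma nice (i : Fin D.r) : D.Nice i (nn i) := by
  have ge : ct ℂ (D.E i 1) ∈ D.g := ⟨_, φ_e i⟩
  have gf : ct ℂ (D.F i 1) ∈ D.g := ⟨_, φ_f i⟩
  have k : ∀ j, D.hm j - D.A i j • D.hm i = diagonal fun a => D.sw i (D.wt a) j := fun j => by
    ext a b
    by_cases h : a = b <;> simp [-zsmul_eq_mul, hm, h, sw_apply, wt, mul_comm]
  refine ⟨fun a b e => ?_, fun a b e => funext fun j => ?_, fun M hM => ?_, fun M hM => ?_,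
    fun k _ => mp_nn (k := k) i ▸ mul_mem (mul_mem (x_e k i _) (x_f k i _)) (x_e k i _)⟩
  · refine (sw_sw i (D.wt a)).symm.trans (congrArg _ (funext fun j => ?_))
    have := ((Ad_nn i).2 j).trans (k j)
    rw [Ad_apply, Units.mul_inv_eq_iff_eq_mul] at this
    have := congrFun (congrFun this a) b
    rw [hm, mul_diagonal, diagonal_mul, mul_comm] at this
    exact (mul_right_cancel₀ e this).symm
  · have := ((Ad_nn i).2 j).trans (k j)
    rw [Ad_apply, mul_assoc, ← Units.eq_inv_mul_iff_mul_eq] at this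
    have := congrFun (congrFun this a) b
    rw [hm, mul_diagonal, diagonal_mul, mul_comm] at this
    exact mul_left_cancel₀ e this
  · rw [mp_nn, Ad_mul, Ad_mul]
    exact Ad_g _ ge _ (Ad_g _ gf _ (Ad_g _ ge _ hM))
  · rw [mp_nn, _root_.mul_inv_rev, _root_.mul_inv_rev, Ad_mul, Ad_mul, DP.inv, DP.inv]
    exact Ad_g _ ge _ (Ad_g _ gf _ (Ad_g _ ge _ hM))

lemma Dg.conj {g : GL (Fin D.n) k} (s1 : g.1 ∈ Sp k fun a b => D.wt a = D.sw i (D.wt b))
    (s2 : g⁻¹.1 ∈ Sp k fun a b => D.wt a = D.sw i (D.wt b)) {M : D.Mat k} (h : M ∈ D.Dg k γ) :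
    Ad g M ∈ D.Dg k (D.s i γ) :=
  Sp.mul (Sp.mul (P'' := fun a c => D.wt a = D.sw i (D.wt c) + D.s i γ ᵥ* D.A) s1 h
    fun a b c e e' => by rw [e, e', sw_add]) s2 fun a b c e e' => by rw [e, e', sw_sw]

lemma RH.conj {N : GL (Fin D.n) ℤ} (hN : D.Nice i N) (h : D.RH γ E) :
    D.RH (D.s i γ) fun m => Ad N (E m) where
  ne := fun e => h.ne (by rw [← s_s i γ, e]; simp [s])
  dp := h.dp.conj N
  g := ct_Ad (k := ℂ) N _ ▸ hN.g1 _ h.g
  dg := Dg.conj hN.s1 hN.s2 h.dg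
  prim := h.prim.conj N
  one := fun M h1 h2 => by
    obtain ⟨c, hc⟩ := h.one _ (hN.g2 M h1) (s_s i γ ▸
      Dg.conj (g := (mp ℂ N)⁻¹) (Sp.map _ hN.s2) (Sp.map _ hN.s1) h2)
    exact ⟨c, by rw [ct_Ad, ← map_smul, ← hc, Ad_inv]⟩
  x := fun k _ t => by
    rw [h.dp.exU_conj]
    exact mul_mem (mul_mem (hN.x k) (h.x k t)) (inv_mem (hN.x k))

lemma RT.conj {N : GL (Fin D.n) ℤ} (hN : D.Nice i N) (h : D.RT γ E F) :
    D.RT (D.s i γ) (fun m => Ad N (E m)) fun m => Ad N (F m) :=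
  ⟨h.1.conj hN, s_neg i γ ▸ h.2.1.conj hN, by rw [← Ad_mul', tr_Ad]; exact h.2.2⟩

lemma prim_e (i : Fin D.r) : Prim (D.E i 1) := by
  let I : Ideal ℤ := LinearMap.range ((traceLinearMap _ ℤ ℤ).comp (LinearMap.mulRight ℤ (D.E i 1)))
  have h1 : ∀ a b, ∃ c, D.E i 1 a b = Submodule.IsPrincipal.generator I * c := fun a b =>
    (Submodule.IsPrincipal.mem_iff_generator_dvd I).1 ⟨single b a 1, by simp [trace_single_mul]⟩
  choose M hM using h1
  have h2 : D.E i 1 = Submodule.IsPrincipal.generator I • Matrix.of M := Matrix.ext hM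
  have h3 := ef (D := D) i
  rw [neg_eq_iff_eq_neg.1 (Ad_nn i).1.symm, h2, map_smul, lie_neg, smul_lie, lie_smul, smul_smul,
    ← smul_neg] at h3
  obtain ⟨a, b, e⟩ := exists_e (D := D) i
  have e : D.μ i a = D.μ i b + 2 := by simpa [wt, α_pr, diag] using congrFun e i
  have h4 : ∀ a, _ ∣ D.μ i a := fun a => Dvd.intro _ (by simpa [hm] using congrFun (congrFun h3 a) a)
  exact (Submodule.IsPrincipal.mem_iff_generator_dvd I (x := 1)).2 (Int.prime_two.irreducible.squarefree _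
    ((Int.dvd_add_right (h4 b)).1 (e ▸ h4 a))).dvd

lemma rt_simple (i : Fin D.r) : D.RT (D.α i) (D.E i) (D.F i) := by
  refine ⟨⟨α_ne i, dp_e i, ⟨_, φ_e i⟩, dg_e i, prim_e i, fun M h1 h2 => ?_, fun k _ => x_e k i⟩,
    ⟨neg_ne_zero.2 (α_ne i), dp_f i, ⟨_, φ_f i⟩, dg_f i, ?_, fun M h1 h2 => ?_, fun k _ => x_f k i⟩,
    tr_pos i⟩
  · refine (Submodule.mem_span_singleton.1 (struct h1 h2 _ fun N hN => ?_)).imp fun _ => Eq.symm
    rcases hN.2 with e | ⟨j, e, rfl⟩ | ⟨j, e, -⟩ | e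
    · exact absurd e (α_ne i)
    · rw [(α_smul_inj one_ne_zero (congrArg ((1 : ℤ) • ·) e)).1]
      exact Submodule.mem_span_singleton_self _
    · simpa using (α_smul_inj (m := 1) (m' := -1) one_ne_zero (by simpa using e)).2
    · exact absurd (one_smul _ _).symm (e.2 i 1)
  · obtain ⟨Λ, h⟩ := (prim_e i).conj (nn i)
    exact ⟨-Λ, by rw [← h, (Ad_nn i).1, neg_mul, mul_neg]⟩
  · refine (Submodule.mem_span_singleton.1 (struct h1 h2 _ fun N hN => ?_)).imp fun _ => Eq.symm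
    rcases hN.2 with e | ⟨j, e, -⟩ | ⟨j, e, rfl⟩ | e
    · exact absurd e (neg_ne_zero.2 (α_ne i))
    · simpa using (α_smul_inj (m := 1) (m' := -1) one_ne_zero (by simpa using e.symm)).2
    · rw [(α_smul_inj one_ne_zero (congrArg ((1 : ℤ) • ·) (neg_injective e))).1]
      exact Submodule.mem_span_singleton_self _
    · exact absurd (neg_one_smul _ _).symm (e.2 i (-1))

lemma RH.rt (h : D.RH γ E) : D.IsRt γ :=
  ⟨h.ne, _, h.g, fun e => one_ne_zero (h.prim.eq_zero (c := (1 : ℂ)) (by rw [e, smul_zero])),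
    Dg.ct h.dg⟩

lemma IsRt.refl (h : D.IsRt γ) (i : Fin D.r) : D.IsRt (D.s i γ) := by
  obtain ⟨h0, M, h1, h2, h3⟩ := h
  have hN := nice (D := D) i
  exact ⟨fun e => h0 (by rw [← s_s i γ, e]; simp [s]), _, hN.g1 M h1,
    fun e => h2 (by rw [← Ad_inv (mp ℂ (nn i))⁻¹ M, inv_inv, e, map_zero]),
    Dg.conj (Sp.map _ hN.s1) (Sp.map _ hN.s2) h3⟩

lemma IsRt.ind {P : D.Q → Prop} (h0 : ∀ i, P (D.α i)) (h1 : ∀ i γ, P γ → P (D.s i γ))
    (h : D.IsRt γ) : P γ := by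
  induction hn : ∑ j, (γ j).natAbs using Nat.strong_induction_on generalizing γ with
  | _ n ih =>
    rcases h.cases with ⟨i, rfl | rfl⟩ | ⟨e1, e2⟩
    · exact h0 i
    · exact s_α i ▸ h1 i _ (h0 i)
    obtain ⟨i, hi⟩ := exists_pos h.1
    have k : ∀ j, j ≠ i → D.s i γ j = γ j := fun j hj => by simp [s, α, hj]
    have k' : D.s i γ i = γ i - (γ ᵥ* D.A) i := by simp [s, α]
    obtain ⟨j, hj, hj'⟩ : ∃ j, j ≠ i ∧ γ j ≠ 0 := by
      by_contra hc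
      push Not at hc
      exact e2 i (γ i) (funext fun j => by by_cases e : j = i <;> simp [α, e, hc j])
    rw [← s_s i γ]
    refine h1 i _ (ih _ (hn ▸ sum_lt_sum (fun l _ => ?_) ⟨i, mem_univ _, ?_⟩) (h.refl i) rfl)
    all_goals
      have : (D.s i γ i).natAbs < (γ i).natAbs := by
        have e3 := k j hj
        rcases e1 with e1 | e1 <;> rcases (h.refl i).sign with e4 | e4 <;>
          have := e1 i <;> have := e1 j <;> have := e4 i <;> have := e4 j <;>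
          simp only [Pi.zero_apply] at * <;> rcases mul_pos_iff.1 hi with e | e <;> omega
    · by_cases e : l = i
      · rw [e]; exact this.le
      · rw [k l e]
    · exact this

lemma IsRt.exists_rt (h : D.IsRt γ) : ∃ E F, D.RT γ E F :=
  h.ind (P := fun γ => ∃ E F, D.RT γ E F) (fun i => ⟨_, _, rt_simple i⟩)
    fun i _ ⟨_, _, h⟩ => ⟨_, _, h.conj (nice i)⟩

lemma IsRt.neg (h : D.IsRt γ) : D.IsRt (-γ) := h.exists_rt.elim fun _ ⟨_, h⟩ => h.2.1.rt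

lemma RH.uniq (h : D.RH γ E) (h' : D.RH γ E') : ∃ ε : ℤˣ, E' 1 = (ε : ℤ) • E 1 ∧
    ∀ (k : Type) [CommRing k] (t : k), ex E' t = ex E (((ε : ℤ) : k) * t) := by
  obtain ⟨c, hc⟩ := h.one _ h'.g (Dg.ct h'.dg)
  obtain ⟨z, hz⟩ := h.prim.int hc
  obtain ⟨Λ, e⟩ := h'.prim
  rw [hz, mul_smul_comm, trace_smul] at e
  obtain ⟨ε, rfl⟩ := IsUnit.of_mul_eq_one _ e
  refine ⟨ε, hz, fun k _ t => sum_congr rfl fun m _ => ?_⟩
  rw [fact_cancel (m := m) (M := E' m) (N := (ε : ℤ) ^ m • E m)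
    (by rw [← h'.dp.pow, hz, smul_pow, h.dp.pow, smul_comm]), map_zsmul, mul_pow, mul_comm, mul_smul,
    ← Int.cast_smul_eq_zsmul k, Int.cast_pow]

lemma RT.uniq (h : D.RT γ E F) (h' : D.RT γ E' F') : ∃ ε : ℤˣ, ∀ (k : Type) [CommRing k] (t : k),
    ex E' t = ex E (((ε : ℤ) : k) * t) ∧ ex F' t = ex F (((ε : ℤ) : k) * t) := by
  obtain ⟨ε, a1, a2⟩ := h.1.uniq h'.1
  obtain ⟨ε', b1, b2⟩ := h.2.1.uniq h'.2.1
  have h1 := h'.2.2
  rw [a1, b1, smul_mul_smul_comm, trace_smul, smul_eq_mul, mul_pos_iff_of_pos_right h.2.2] at h1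
  obtain rfl : ε = ε' := by
    rcases Int.units_eq_one_or ε with rfl | rfl <;> rcases Int.units_eq_one_or ε' with rfl | rfl <;>
      simp at h1 ⊢
  exact ⟨ε, fun k _ t => ⟨a2 k t, b2 k t⟩⟩

lemma exists_EE (D : Chev) : ∃ EE : D.Q → ℕ → D.Mat ℤ, (∀ γ, D.IsRt γ → D.RT γ (EE γ) (EE (-γ))) ∧
    ∀ i, EE (D.α i) = D.E i ∧ EE (-D.α i) = D.F i := by
  classical
  have : ∀ γ : D.Q, ∃ x : (ℕ → D.Mat ℤ) × (ℕ → D.Mat ℤ), (D.IsRt γ → D.RT γ x.1 x.2) ∧
      ∀ i, γ = D.α i → x = (D.E i, D.F i) := fun γ => by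
    by_cases h : ∃ i, γ = D.α i
    · obtain ⟨i, rfl⟩ := h
      exact ⟨(D.E i, D.F i), fun _ => rt_simple i, fun j e => by
        rw [(α_smul_inj one_ne_zero (congrArg ((1 : ℤ) • ·) e)).1]⟩
    by_cases h' : D.IsRt γ
    · obtain ⟨E, F, h'⟩ := h'.exists_rt
      exact ⟨(E, F), fun _ => h', fun i e => absurd ⟨i, e⟩ h⟩
    · exact ⟨0, fun e => absurd e h', fun i e => absurd ⟨i, e⟩ h⟩
  choose x h1 h2 using this
  have k : ∀ γ : D.Q, 0 ≤ γ → γ ≠ 0 → ¬ 0 ≤ -γ := fun γ e e' e'' =>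
    e' (le_antisymm (neg_nonneg.1 e'') e)
  refine ⟨fun γ => if 0 ≤ γ then (x γ).1 else (x (-γ)).2, fun γ h => ?_, fun i => ?_⟩
  · rcases h.sign with e | e
    · simpa [e, k γ e h.1] using h1 γ h
    · have := k (-γ) (neg_nonneg.2 e) h.neg.1
      rw [neg_neg] at this
      simpa [e, this] using (h1 _ h.neg).symm
  · simp [α_nonneg, k _ (α_nonneg i) (α_ne i), h2 _ i rfl]

variable (D) in
/-- the divided powers of the root vectors -/
noncomputable def EE : D.Q → ℕ → D.Mat ℤ := (exists_EE D).choose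

lemma IsRt.rt (h : D.IsRt γ) : D.RT γ (D.EE γ) (D.EE (-γ)) := (exists_EE D).choose_spec.1 γ h

lemma IsRt.rh (h : D.IsRt γ) : D.RH γ (D.EE γ) := h.rt.1

lemma EE_e (i : Fin D.r) : D.EE (D.α i) = D.E i := ((exists_EE D).choose_spec.2 i).1

lemma EE_f (i : Fin D.r) : D.EE (-D.α i) = D.F i := ((exists_EE D).choose_spec.2 i).2

lemma fin_rt (D : Chev) : {γ | D.IsRt γ}.Finite :=
  ((Set.finite_range fun x : Fin D.n × Fin D.n => D.wt x.1 - D.wt x.2).preimage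
    (f := fun γ => γ ᵥ* D.A) fun _ _ _ _ => pr_inj).subset fun γ ⟨_, M, _, h2, h3⟩ => by
    by_contra hn
    exact h2 (Matrix.ext fun a b => by_contra fun e => hn ⟨(a, b), sub_eq_of_eq_add' (h3 a b e)⟩)

variable (D) in
/-- the root system -/
noncomputable abbrev R : RS := ⟨D.r, D.A, (fin_rt D).toFinset⟩

lemma mem_Φ : γ ∈ D.R.Φ ↔ D.IsRt γ := Set.Finite.mem_toFinset _

lemma conn (P : Fin D.r → Prop) (i j : Fin D.r) (hi : P i)
    (h : ∀ i j, P i → D.A j i ≠ 0 → P j) : P j := by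
  by_contra hj
  have k : ∀ (ε : ℤˣ) (x y : D.L) i j, P i → ¬ P j → D.φ x ∈ D.Dg ℂ (ε • D.α j) →
      D.φ y ∈ D.Dg ℂ (ε • D.α i) → ⁅x, y⁆ = 0 := fun ε x y i j hi hj hx hy => by
    have hij : i ≠ j := fun e => hj (e ▸ hi)
    have h0 : D.A j i = 0 := not_not.1 (mt (h i j hi) hj)
    by_contra hn
    have h1 : D.IsRt (ε • D.α j + ε • D.α i) := ⟨fun e => by simpa [α, hij, Units.smul_def] using congrFun e i, _,
      ⟨_, rfl⟩, fun e => hn (D.inj (e.trans (map_zero _).symm)), φ_lie x y ▸ Dg.lie hx hy⟩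
    rcases (h1.refl i).sign with e | e <;> have e1 := e i <;> have e2 := e j <;>
      rcases Int.units_eq_one_or ε with rfl | rfl <;>
      simp [s, add_vecMul, neg_vecMul, α, h0, diag, hij, hij.symm] at e1 e2
  let K := LieSubalgebra.lieSpan ℂ D.L {x | ∃ i, P i ∧ (x = D.b.e i ∨ x = D.b.f i)}
  have k2 : ∀ j, ¬ P j → ∀ y, y = D.b.e j ∨ y = D.b.f j → ∀ x ∈ K, ⁅y, x⁆ = 0 := by
    intro j hj y hy x hx
    induction hx using LieSubalgebra.lieSpan_induction with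
    | mem u hu =>
      obtain ⟨i, hi, hu⟩ := hu
      have hij : i ≠ j := fun e => hj (e ▸ hi)
      rcases hy with rfl | rfl <;> rcases hu with rfl | rfl
      · exact k 1 _ _ i j hi hj (by rw [φ_e, one_smul]; exact Dg.ct (dg_e j))
          (by rw [φ_e, one_smul]; exact Dg.ct (dg_e i))
      · exact D.b.lie_e_f_ne j i hij.symm
      · rw [← lie_skew, D.b.lie_e_f_ne i j hij, neg_zero]
      · exact k (-1) _ _ i j hi hj (by rw [φ_f, Units.neg_smul, one_smul]; exact Dg.ct (dg_f j))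
          (by rw [φ_f, Units.neg_smul, one_smul]; exact Dg.ct (dg_f i))
    | zero => simp
    | add u v _ _ hu hv => rw [lie_add, hu, hv, add_zero]
    | smul t u _ hu => rw [lie_smul, hu, smul_zero]
    | lie u v _ _ hu hv => rw [leibniz_lie, hu, hv]; simp
  have k3 : ⊤ ≤ K.normalizer := by
    rw [← D.b.span_ef, LieSubalgebra.lieSpan_le]
    intro y hy
    obtain ⟨l, hl⟩ : ∃ l, y = D.b.e l ∨ y = D.b.f l :=
      hy.elim (fun ⟨l, e⟩ => ⟨l, Or.inl e.symm⟩) fun ⟨l, e⟩ => ⟨l, Or.inr e.symm⟩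
    by_cases e : P l
    · exact K.le_normalizer (LieSubalgebra.subset_lieSpan ⟨l, e, hl⟩)
    · exact (K.mem_normalizer_iff y).2 fun x hx => k2 l e y hl x hx ▸ zero_mem _
  obtain ⟨I, hI⟩ := K.exists_lieIdeal_coe_eq_iff.2 fun x y hy =>
    (K.mem_normalizer_iff x).1 (k3 trivial) y hy
  have k4 : ∀ x, x ∈ I ↔ x ∈ K := fun x => by rw [← hI]; rfl
  rcases D.simple.eq_bot_or_eq_top I with rfl | rfl
  · exact (D.b.sl2 i).e_ne_zero ((k4 _).2 (LieSubalgebra.subset_lieSpan ⟨i, hi, Or.inl rfl⟩))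
  · exact (D.b.sl2 j).h_ne_zero
      ((D.b.sl2 j).lie_e_f.symm.trans (k2 j hj _ (Or.inl rfl) _ ((k4 _).1 trivial)))

theorem R_ok (D : Chev) : D.R.Ok where
  pos := by
    by_contra h
    have : IsEmpty (Fin D.r) := ⟨fun i => h i.pos⟩
    have h1 := D.b.span_ef
    rw [Set.range_eq_empty, Set.range_eq_empty, Set.union_self, LieSubalgebra.span_empty] at h1
    exact D.simple.non_abelian ⟨fun x y => (LieSubalgebra.mem_bot _).1 (h1.ge trivial)⟩
  diag := diag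
  simple := fun i => mem_Φ.2 (rt_simple i).1.rt
  refl := fun i _ h => mem_Φ.2 ((mem_Φ.1 h).refl i)
  sign := fun _ h => ⟨(mem_Φ.1 h).1, (mem_Φ.1 h).sign⟩
  red := fun _ _ h => (mem_Φ.1 h).red
  conj := fun _ h => (mem_Φ.1 h).ind (P := fun γ => ∃ (l : List (Fin D.r)) (i : Fin D.r),
    γ = l.foldr D.s (D.α i)) (fun i => ⟨[], i, rfl⟩) fun i _ ⟨l, j, e⟩ => ⟨i :: l, j, e ▸ rfl⟩
  det := det_ne
  conn := conn

end Chev

end Vale.Agent.P183CH
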