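import Vale.Agent.P183CH1.Root
import Vale.Agent.P183CH1B.CM
import Mathlib.FieldTheory.Finite.Basic

/-!
Chevalley groups satisfy the Chevalley relations.
-/

set_option autoImplicit false
set_option linter.all false

namespace Vale.Agent.P183CH

open Matrix Finset

attribute [local instance 100] LieRing.ofAssociativeRing

section
variable {n : ℕ} {k : Type} [Field k]

lemma diag_comm {d d' : Fin n → k} {M : Matrix (Fin n) (Fin n) k}
    (h : M ∈ Sp k fun a b => d a = d' b) : diagonal d * M = M * diagonal d' := by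
  ext a b
  rw [diagonal_mul, mul_diagonal, mul_comm]
  by_cases e : M a b = 0
  · rw [e, zero_mul, zero_mul]
  · rw [show d a = d' b from h a b e]

/-- diagonal one-parameter groups -/
def dgU (w : Fin n → ℤ) : kˣ →* GL (Fin n) k where
  toFun t := ⟨diagonal fun a => ((t ^ w a : kˣ) : k), diagonal fun a => ((t ^ w a : kˣ)⁻¹ : kˣ),
    by simp only [diagonal_mul_diagonal, Units.mul_inv, diagonal_one],
    by simp only [diagonal_mul_diagonal, Units.inv_mul, diagonal_one]⟩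
  map_one' := Units.ext (by simp)
  map_mul' a b := Units.ext (by simp [mul_zpow])

lemma fix_card {G : Type} (ι : G → Matrix (Fin n) (Fin n) k) (hι : Function.Injective ι) {q : ℕ}
    (hq : 1 < q) {S : Set G} (h : ∀ g ∈ S, (ι g).map (· ^ q) = ι g) :
    S.Finite ∧ S.ncard ≤ q ^ (n * n) := by
  classical
  let s := (Polynomial.X ^ q - Polynomial.X : Polynomial k).roots.toFinset
  have h1 : Set.MapsTo (fun g (x : Fin n × Fin n) => ι g x.1 x.2) S
      (Fintype.piFinset fun _ : Fin n × Fin n => s) := fun g hg => by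
    simpa [s, FiniteField.X_pow_card_sub_X_ne_zero k hq, sub_eq_zero] using
      fun a b => congrFun (congrFun (h g hg) a) b
  have h2 : Set.InjOn (fun g (x : Fin n × Fin n) => ι g x.1 x.2) S :=
    fun a _ b _ e => hι (Matrix.ext fun i j => congrFun e (i, j))
  refine ⟨.of_injOn h1 h2 (Finset.finite_toSet _),
    (Set.ncard_le_ncard_of_injOn _ h1 h2 (Finset.finite_toSet _)).trans ?_⟩
  rw [Set.ncard_coe_finset, Fintype.card_piFinset, prod_const, card_univ, Fintype.card_prod, Fintype.card_fin]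
  exact Nat.pow_le_pow_left ((Multiset.toFinset_card_le _).trans ((Polynomial.card_roots' _).trans
    (FiniteField.X_pow_card_sub_X_natDegree_eq k hq).le)) _

end

namespace Chev

variable {D : Chev} {k : Type} [Field k] {γ δ : D.Q} {E : ℕ → D.Mat ℤ}

lemma dg_ex (h : DP E) (hd : E 1 ∈ D.Dg ℤ γ) (i : Fin D.r) (s : kˣ) (u : k) :
    dgU (D.μ i) s * h.exU u * (dgU (D.μ i) s)⁻¹ = h.exU (((s ^ (γ ᵥ* D.A) i : kˣ) : k) * u) := by
  rw [mul_inv_eq_iff_eq_mul]
  refine Units.ext ?_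
  show diagonal _ * ex E u = ex E _ * diagonal _
  simp only [ex, mul_sum, sum_mul]
  refine sum_congr rfl fun m _ => ?_
  rw [mul_smul_comm, smul_mul_assoc, mul_pow, mul_comm _ (u ^ m), mul_smul, ← mul_smul_comm _ (ct k _),
    ← diagonal_smul, diag_comm (Sp.mono (DP_dg h hd m) fun a b e => ?_)]
  rw [show D.μ i a = D.μ i b + m * (γ ᵥ* D.A) i from (congrFun e i).trans (by rw [smul_vecMul]; rfl),
    zpow_add, mul_comm (m : ℤ), zpow_mul]
  simp [mul_comm]

lemma nn_dg (i j : Fin D.r) (t : kˣ) : mp k (nn i) * dgU (D.μ j) t * (mp k (nn i))⁻¹ =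
    dgU (D.μ j) t * dgU (D.μ i) (t ^ (-D.A i j)) := by
  rw [mul_inv_eq_iff_eq_mul]
  refine Units.ext (Eq.symm ?_)
  show diagonal _ * diagonal _ * ct k (nn i).1 = ct k (nn i).1 * diagonal _
  rw [diagonal_mul_diagonal]
  refine diag_comm (Sp.mono (Sp.map _ (nice i).s1) fun a b e => ?_)
  have e1 : D.μ j b = D.μ j a - D.μ i a * D.A i j := by
    rw [← sw_sw i (D.wt a)] at e
    have := congrFun (sw_sw i (D.wt b)) j
    rw [← e, sw_sw, sw_apply] at this
    exact this.symm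
  rw [← Units.val_mul, ← zpow_mul, ← zpow_add, e1]
  congr 2
  ring

lemma sl_GL [IsAlgClosed k] (i : Fin D.r) (t : kˣ) : (dp_e i).exU (t : k) *
    (dp_f i).exU (-((t⁻¹ : kˣ) : k)) * (dp_e i).exU (t : k) = dgU (D.μ i) t * mp k (nn i) := by
  obtain ⟨s, hs⟩ := IsAlgClosed.exists_eq_mul_self (t : k)
  obtain ⟨s, rfl⟩ : IsUnit s := isUnit_of_mul_isUnit_left (hs ▸ t.isUnit)
  obtain rfl : t = s * s := Units.ext hs
  have h1 := dg_ex (dp_e i) (dg_e i) i s 1
  have h2 := dg_ex (dp_f i) (dg_f i) i s (-1)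
  have h3 := nn_dg (k := k) i i s⁻¹
  rw [neg_vecMul, Pi.neg_apply] at h2
  rw [α_pr, diag, mul_one, zpow_two] at h1
  rw [α_pr, diag, mul_neg_one, _root_.zpow_neg, zpow_two] at h2
  rw [diag, ← map_mul, inv_zpow', neg_neg, zpow_two, inv_mul_cancel_left, map_inv,
    mul_inv_eq_iff_eq_mul] at h3
  rw [map_mul, mul_assoc (dgU _ s), ← h3, ← h1, ← h2, mp_nn]
  group

open Classical in
variable (D k) in
/-- the root elements and the torus -/
noncomputable def G [IsAlgClosed k] : RG D.R k (D.grp k) where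
  x γ t := if h : D.IsRt γ then ⟨h.rh.dp.exU t, h.rh.x k t⟩ else 1
  h i := (dgU (D.μ i)).codRestrict _ fun t => by
    rw [← mul_inv_eq_iff_eq_mul.2 (sl_GL i t)]
    exact mul_mem (mul_mem (mul_mem (x_e k i _) (x_f k i _)) (x_e k i _)) (inv_mem ((nice i).x k))

variable [IsAlgClosed k]

lemma G_x (h : D.IsRt γ) (t : k) : ((D.G k).x γ t).1 = h.rh.dp.exU t := by simp [G, h]

lemma G_e (i : Fin D.r) (t : k) : ((D.G k).x (D.α i) t).1 = (dp_e i).exU t :=
  (G_x (rt_simple i).1.rt t).trans (Units.ext (congrArg (ex · t) (EE_e i)))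

lemma G_f (i : Fin D.r) (t : k) : ((D.G k).x (-D.α i) t).1 = (dp_f i).exU t :=
  (G_x (rt_simple i).2.1.rt t).trans (Units.ext (congrArg (ex · t) (EE_f i)))

lemma G_n (i : Fin D.r) : ((D.G k).n i).1 = mp k (nn i) := by
  rw [mp_nn, ← G_e, ← G_f]
  rfl

lemma rf (D : Chev) : RF D.R D.wt D.EE where
  deg := fun _ h => (mem_Φ.1 h).rh.dg
  pow := fun _ h => (mem_Φ.1 h).rh.dp.pow
  nil := fun _ h => (mem_Φ.1 h).rh.dp.nil
  prim := fun _ h l hl => by
    by_contra hn
    push Not at hn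
    have : Fact l.Prime := ⟨hl⟩
    exact one_ne_zero ((mem_Φ.1 h).rh.prim.eq_zero (c := (1 : ZMod l)) (Matrix.ext fun a b => by
      simpa [ZMod.intCast_zmod_eq_zero_iff_dvd] using hn a b))
  br := fun γ h δ h' _ _ => by
    have a := (mem_Φ.1 h).rh
    have b := (mem_Φ.1 h').rh
    have h1 := lie_mem_g a.g b.g
    have h2 := Dg.lie (Dg.ct (k := ℂ) a.dg) (Dg.ct b.dg)
    rw [← ct_lie] at h1 h2
    by_cases e : D.IsRt (γ + δ)
    · exact (e.rh.one _ h1 h2).imp fun c hc => ⟨fun e' => absurd (mem_Φ.2 e) e', hc⟩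
    · refine ⟨0, fun _ => rfl, Eq.trans (by_contra fun e' => e ⟨fun e0 => ?_, _, h1, e', h2⟩)
        (zero_smul ℂ _).symm⟩
      exact a.ne (le_antisymm (e0 ▸ le_add_of_nonneg_right ‹0 ≤ δ›) ‹0 ≤ γ›)

lemma G_mat : (D.G k).Mat (D.nat k) D.wt D.EE :=
  ⟨R_ok D, rf D, fun _ _ e => Subtype.ext (Units.ext e),
    fun _ h t => congrArg Units.val (G_x (mem_Φ.1 h) t), fun _ _ => rfl⟩

lemma G_ok : (D.G k).Ok where
  add := G_mat.add
  gen := eq_top_iff.2 (Subgroup.closure_closure_coe_preimage.ge.trans (Subgroup.closure_mono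
    fun g ⟨i, t, h⟩ => ⟨i, t, h.imp (fun e => Subtype.ext ((Units.ext e).trans (G_e i t).symm))
      fun e => Subtype.ext ((Units.ext e).trans (G_f i t).symm)⟩))
  hh := G_mat.hh
  hx := G_mat.hx
  nx := fun i γ h => by
    have h := mem_Φ.1 h
    obtain ⟨ε, e⟩ := (h.refl i).rt.uniq (h.rt.conj (nice i))
    refine ⟨ε, fun u => ⟨Subtype.ext ?_, Subtype.ext ?_⟩⟩
    · rw [Subgroup.coe_mul, Subgroup.coe_mul, Subgroup.coe_inv, G_n, G_x h, ← DP.exU_conj]
      exact (Units.ext (e k u).1).trans (G_x (h.refl i) _).symm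
    · rw [Subgroup.coe_mul, Subgroup.coe_mul, Subgroup.coe_inv, G_n, G_x h.neg, ← DP.exU_conj]
      exact (Units.ext (e k u).2).trans (G_x (h.refl i).neg _).symm
  sl := fun i t => Subtype.ext (by
    rw [Subgroup.coe_mul _ ((D.G k).h i t), G_n]
    exact (by rw [← G_e, ← G_f]; rfl : _ = _).trans (sl_GL i t))
  nh := fun i j t => Subtype.ext (by
    rw [Subgroup.coe_mul, Subgroup.coe_mul, Subgroup.coe_inv, G_n]
    exact nn_dg i j t)
  comm := G_mat.comm
  uniq := G_mat.uniq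
  tri := G_mat.tri

end Chev

open Chev in
/-- **Chevalley groups satisfy the Chevalley relations.** -/
theorem ch1m : CH1M := fun D => ⟨D.R, D.wt, D.EE, fun k _ _ => ⟨D.G k, G_mat, G_ok, by
  rintro p _ _ σ ⟨⟨π, a, h1⟩, e, f, h2, h3, h4, h5⟩
  have := fix_card (D.nat k) G_mat.inj (Nat.one_lt_pow h4.ne' (Fact.out : p.Prime).one_lt)
    (S := {g | σ g = g}) fun g hg => (h5 g).symm.trans (by rw [Function.iterate_fixed hg]; rfl)
  refine ⟨π, a, e, f, fun i t => Subtype.ext ?_, fun i t => Subtype.ext ?_, h2, h3, h4,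
    fun γ h t => Subtype.ext ?_, this.1, this.2⟩
  · exact (Units.ext ((h1 _ i t).1 (congrArg Units.val (G_e i t)))).trans (G_e _ _).symm
  · exact (Units.ext ((h1 _ i t).2 (congrArg Units.val (G_f i t)))).trans (G_f _ _).symm
  · rw [G_x (mem_Φ.1 h)]
    refine Units.ext ((h5 _).trans ?_)
    rw [G_x (mem_Φ.1 h)]
    exact map_ex (iterateFrobenius k p f) _ t⟩⟩

end Vale.Agent.P183CH
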