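import Vale.Agent.P183CH.IF
import Mathlib.RingTheory.Nilpotent.Exp
import Mathlib.Algebra.Lie.AdjointAction.Basic
import Mathlib.LinearAlgebra.Matrix.Charpoly.Coeff
import Mathlib.LinearAlgebra.Complex.Module
import Mathlib.Algebra.Algebra.Rat

/-!
Gradings of matrices, divided powers and exponentials.
-/

set_option autoImplicit false
set_option linter.all false

namespace Vale.Agent.P183CH

open Matrix Finset

attribute [instance] Chev.lr Chev.la

attribute [local instance 100] LieRing.ofAssociativeRing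

section
variable {n : ℕ} {k : Type} [CommRing k]

variable (k) in
/-- matrices with support in `P` -/
def Sp (P : Fin n → Fin n → Prop) : Submodule k (Matrix (Fin n) (Fin n) k) where
  carrier := {M | ∀ a b, M a b ≠ 0 → P a b}
  zero_mem' := fun _ _ h => absurd rfl h
  add_mem' := fun {M N} hM hN a b h => by
    by_contra hn
    exact h (by rw [Matrix.add_apply, not_not.1 (mt (hM a b) hn), not_not.1 (mt (hN a b) hn), add_zero])
  smul_mem' := fun c M hM a b h => hM a b fun e => h (by rw [Matrix.smul_apply, e, smul_zero])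

variable {P P' P'' : Fin n → Fin n → Prop} {M N : Matrix (Fin n) (Fin n) k}

lemma mem_Sp : M ∈ Sp k P ↔ ∀ a b, M a b ≠ 0 → P a b := Iff.rfl

lemma Sp.mono (h : M ∈ Sp k P) (hP : ∀ a b, P a b → P' a b) : M ∈ Sp k P' :=
  fun a b e => hP a b (h a b e)

lemma Sp.mul (h : M ∈ Sp k P) (h' : N ∈ Sp k P') (hP : ∀ a b c, P a b → P' b c → P'' a c) :
    M * N ∈ Sp k P'' := fun a c e => by
  obtain ⟨b, -, hb⟩ := Finset.exists_ne_zero_of_sum_ne_zero (mul_apply (M := M) ▸ e)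
  exact hP a b c (h a b (left_ne_zero_of_mul hb)) (h' b c (right_ne_zero_of_mul hb))

lemma Sp.map {k' : Type} [CommRing k'] (f : k →+* k') (h : M ∈ Sp k P) : M.map f ∈ Sp k' P :=
  fun a b e => h a b fun e' => e (by rw [map_apply, e', map_zero])

lemma Sp.of_map {k' : Type} [CommRing k'] {f : k →+* k'} (hf : Function.Injective f)
    (h : M.map f ∈ Sp k' P) : M ∈ Sp k P :=
  fun a b e => h a b fun e' => e (hf (e'.trans (map_zero f).symm))

lemma Sp.one (h : ∀ a, P a a) : (1 : Matrix (Fin n) (Fin n) k) ∈ Sp k P := fun a b e => by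
  obtain rfl : a = b := by_contra fun h => e (one_apply_ne h)
  exact h a

variable (k) in
/-- integer matrices over `k` -/
abbrev ct : Matrix (Fin n) (Fin n) ℤ →+* Matrix (Fin n) (Fin n) k := (Int.castRingHom k).mapMatrix

lemma ct_inj [CharZero k] : Function.Injective (ct k : Matrix (Fin n) (Fin n) ℤ → _) :=
  fun _ _ h => Matrix.ext fun a b => Int.cast_injective (congrFun (congrFun h a) b)

lemma map_ct {k' : Type} [CommRing k'] (f : k →+* k') (E : Matrix (Fin n) (Fin n) ℤ) :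
    (ct k E).map f = ct k' E := Matrix.ext fun a b => map_intCast f _

/-- divided powers of a nilpotent integer matrix -/
structure DP (E : ℕ → Matrix (Fin n) (Fin n) ℤ) : Prop where
  pow : ∀ m, E 1 ^ m = m.factorial • E m
  nil : E 1 ^ n = 0

/-- the exponential -/
def ex (E : ℕ → Matrix (Fin n) (Fin n) ℤ) (t : k) : Matrix (Fin n) (Fin n) k :=
  ∑ m ∈ range n, t ^ m • ct k (E m)

lemma map_ex {k' : Type} [CommRing k'] (f : k →+* k') (E : ℕ → Matrix (Fin n) (Fin n) ℤ) (t : k) :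
    (ex E t).map f = ex E (f t) := by
  ext a b
  simp [ex, Matrix.sum_apply]

lemma pow_card {M : Matrix (Fin n) (Fin n) ℤ} (h : IsNilpotent M) : M ^ n = 0 := by
  have := aeval_self_charpoly M
  rw [sub_eq_zero.1 (isNilpotent_charpoly_sub_pow_of_isNilpotent h).eq_zero] at this
  simpa using this

lemma fact_cancel {m : ℕ} {M N : Matrix (Fin n) (Fin n) ℤ} (h : m.factorial • M = m.factorial • N) :
    M = N := Matrix.ext fun a b => smul_right_injective ℤ m.factorial_ne_zero (congrFun (congrFun h a) b)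

namespace DP

variable {E : ℕ → Matrix (Fin n) (Fin n) ℤ} (h : DP E)
include h

lemma zero : E 0 = 1 := by simpa using (h.pow 0).symm

lemma van {m : ℕ} (hm : n ≤ m) : E m = 0 :=
  fact_cancel (by rw [← h.pow, pow_eq_zero_of_le hm h.nil, smul_zero])

lemma mul (a b : ℕ) : E a * E b = (a + b).choose a • E (a + b) := by
  refine fact_cancel (m := a) (fact_cancel (m := b) ?_)
  rw [← smul_mul_assoc, ← mul_smul_comm, ← h.pow, ← h.pow, ← pow_add, h.pow, smul_smul, smul_smul,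
    ← Nat.add_choose_mul_factorial_mul_factorial]
  congr 1
  rw [Nat.choose_symm_add]
  ring

lemma add (t u : k) : ex E (t + u) = ex E t * ex E u := by
  unfold ex
  rw [sum_mul_sum]
  have : ∀ m ∈ range n, (t + u) ^ m • ct k (E m) =
      ∑ a ∈ range (m + 1), t ^ a • ct k (E a) * u ^ (m - a) • ct k (E (m - a)) := fun m _ => by
    rw [add_pow, sum_smul]
    refine sum_congr rfl fun a ha => ?_
    rw [smul_mul_smul_comm, ← map_mul, h.mul, Nat.add_sub_of_le (mem_range_succ_iff.1 ha), map_nsmul,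
      mul_smul _ (m.choose a : k), Nat.cast_smul_eq_nsmul]
  rw [sum_congr rfl this,
    sum_range_diag_flip n fun a b => t ^ a • ct k (E a) * u ^ b • ct k (E b)]
  refine sum_congr rfl fun a _ => sum_subset (range_mono (Nat.sub_le _ _)) fun b _ hb => ?_
  rw [smul_mul_smul_comm, ← map_mul, h.mul, h.van (by rw [mem_range] at hb; omega)]
  simp

lemma sub_mem (W : Submodule k (Matrix (Fin n) (Fin n) k)) (j : ℕ) (t : k)
    (hW : ∀ m, j ≤ m → t ^ m • ct k (E m) ∈ W) :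
    ex E t - ∑ m ∈ range j, t ^ m • ct k (E m) ∈ W := by
  have : ex E t = ∑ m ∈ range (j + n), t ^ m • ct k (E m) :=
    sum_subset (range_mono (Nat.le_add_left _ _)) fun m _ hm => by
      rw [h.van (by simpa using hm)]; simp
  rw [this, sum_range_add, add_sub_cancel_left]
  exact sum_mem fun m _ => hW _ (Nat.le_add_right _ _)

lemma ex_zero : ex E (0 : k) = 1 := by
  simpa [h.zero, sub_eq_zero] using h.sub_mem ⊥ 1 (0 : k) fun m hm => by simp [zero_pow (by omega : m ≠ 0)]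

/-- the exponential as a unit -/
def exU (t : k) : GL (Fin n) k :=
  ⟨ex E t, ex E (-t), by rw [← h.add, add_neg_cancel, h.ex_zero],
    by rw [← h.add, neg_add_cancel, h.ex_zero]⟩

lemma nilC (t : k) : (t • ct k (E 1)) ^ n = 0 := by rw [smul_pow, ← map_pow, h.nil]; simp

lemma ex_eq (t : ℂ) : ex E t = IsNilpotent.exp (t • ct ℂ (E 1)) := by
  rw [IsNilpotent.exp_eq_sum (h.nilC t)]
  refine sum_congr rfl fun m _ => ?_
  rw [smul_pow, ← map_pow, h.pow, map_nsmul, smul_comm, ← Nat.cast_smul_eq_nsmul ℚ,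
    inv_smul_smul₀ (Nat.cast_ne_zero.2 m.factorial_ne_zero)]

end DP

lemma conj_exp {M : Matrix (Fin n) (Fin n) ℂ} (h : IsNilpotent M) (Y : Matrix (Fin n) (Fin n) ℂ) :
    IsNilpotent.exp M * Y * IsNilpotent.exp (-M) = IsNilpotent.exp (LieAlgebra.ad ℂ _ M) Y := by
  obtain ⟨j, hj⟩ := id h
  have h1 : LieAlgebra.ad ℂ _ M = LinearMap.mulLeft ℂ M + LinearMap.mulRight ℂ (-M) := by
    ext1 Y
    simp [Ring.lie_def, sub_eq_add_neg]
  have hj' : (-M) ^ j = 0 := by rw [neg_pow, hj, mul_zero]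
  rw [h1, IsNilpotent.exp_add_of_commute (LinearMap.commute_mulLeft_right _ _)
    ((LinearMap.isNilpotent_mulLeft_iff _ _).2 h) ((LinearMap.isNilpotent_mulRight_iff _ _).2 h.neg),
    IsNilpotent.exp_eq_sum hj, IsNilpotent.exp_eq_sum hj',
    IsNilpotent.exp_eq_sum (k := j) (by rw [LinearMap.pow_mulLeft, hj]; simp),
    IsNilpotent.exp_eq_sum (k := j) (by rw [LinearMap.pow_mulRight, hj']; simp)]
  simp [LinearMap.sum_apply, Finset.sum_mul, Finset.mul_sum, mul_assoc]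

/-- the expansion of `Ad (exp M) Y` modulo a subspace stable under `ad M` -/
lemma conj_trunc {M : Matrix (Fin n) (Fin n) ℂ} (h : IsNilpotent M)
    (W : Submodule ℂ (Matrix (Fin n) (Fin n) ℂ)) (hW : ∀ Y ∈ W, ⁅M, Y⁆ ∈ W)
    {Y : Matrix (Fin n) (Fin n) ℂ} (j : ℕ) (hj : (LieAlgebra.ad ℂ _ M ^ j) Y ∈ W) :
    IsNilpotent.exp M * Y * IsNilpotent.exp (-M) -
      ∑ i ∈ range j, (i.factorial : ℚ)⁻¹ • (LieAlgebra.ad ℂ _ M ^ i) Y ∈ W := by
  obtain ⟨l, hl⟩ := LieAlgebra.ad_nilpotent_of_nilpotent (R := ℂ) h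
  rw [conj_exp h, IsNilpotent.exp_eq_sum (pow_eq_zero_of_le (Nat.le_add_left l j) hl), sum_range_add,
    LinearMap.add_apply, LinearMap.sum_apply, LinearMap.sum_apply]
  simp only [LinearMap.smul_apply, add_sub_cancel_left]
  refine sum_mem fun i hi => W.smul_of_tower_mem _ ?_
  clear hi
  induction i with
  | zero => exact hj
  | succ i ih => rw [← add_assoc, pow_succ']; exact hW _ ih

lemma conj_mem {M : Matrix (Fin n) (Fin n) ℂ} (h : IsNilpotent M)
    (W : Submodule ℂ (Matrix (Fin n) (Fin n) ℂ)) (hW : ∀ Y ∈ W, ⁅M, Y⁆ ∈ W)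
    {Y : Matrix (Fin n) (Fin n) ℂ} (hY : Y ∈ W) :
    IsNilpotent.exp M * Y * IsNilpotent.exp (-M) ∈ W := by simpa using conj_trunc h W hW 0 hY

lemma conj_two {M Y : Matrix (Fin n) (Fin n) ℂ} (h : IsNilpotent M) (h3 : ⁅M, ⁅M, ⁅M, Y⁆⁆⁆ = 0) :
    IsNilpotent.exp M * Y * IsNilpotent.exp (-M) = Y + ⁅M, Y⁆ + (2 : ℂ)⁻¹ • ⁅M, ⁅M, Y⁆⁆ := by
  have := conj_trunc h ⊥ (by simp) (Y := Y) 3 (by simpa [pow_succ] using h3)
  rw [Submodule.mem_bot, sub_eq_zero] at this
  rw [this]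
  simp [sum_range_succ, pow_succ, ← Rat.cast_smul_eq_qsmul ℂ]

/-- primitive integer matrices -/
def Prim (E : Matrix (Fin n) (Fin n) ℤ) : Prop := ∃ Λ : Matrix (Fin n) (Fin n) ℤ, trace (Λ * E) = 1

lemma Prim.tr {E : Matrix (Fin n) (Fin n) ℤ} (h : Prim E) :
    ∃ Λ : Matrix (Fin n) (Fin n) ℤ, ∀ (k : Type) [CommRing k] (c : k),
      trace (ct k Λ * c • ct k E) = c := by
  obtain ⟨Λ, h⟩ := h
  refine ⟨Λ, fun k _ c => ?_⟩
  rw [mul_smul_comm, trace_smul, ← map_mul, RingHom.mapMatrix_apply, ← AddMonoidHom.map_trace, h]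
  simp

lemma Prim.eq_zero {E : Matrix (Fin n) (Fin n) ℤ} (h : Prim E) {c : k} (e : c • ct k E = 0) :
    c = 0 := by
  obtain ⟨Λ, h⟩ := h.tr
  rw [← h k c, e]
  simp

lemma Prim.int {E E' : Matrix (Fin n) (Fin n) ℤ} (h : Prim E) {c : ℂ} (e : ct ℂ E' = c • ct ℂ E) :
    ∃ z : ℤ, E' = z • E := by
  obtain ⟨Λ, h⟩ := h.tr
  refine ⟨trace (Λ * E'), ct_inj (k := ℂ) ?_⟩
  rw [e, ← h ℂ c, ← e, ← map_mul, RingHom.mapMatrix_apply, ← AddMonoidHom.map_trace, map_zsmul,
    ← Int.cast_smul_eq_zsmul ℂ]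
  rfl

end

namespace Chev

variable (D : Chev) {k : Type} [CommRing k]

/-- the Cartan matrix -/
abbrev A : Matrix (Fin D.r) (Fin D.r) ℤ := D.b.A

/-- the lattice -/
abbrev Q : Type := Fin D.r → ℤ

/-- matrices -/
abbrev Mat (k : Type) : Type := Matrix (Fin D.n) (Fin D.n) k

/-- the weight of a basis vector -/
def wt (a : Fin D.n) : D.Q := fun i => D.μ i a

/-- the height of a basis vector -/
def ht (a : Fin D.n) : ℤ := D.A.det * ∑ i, (D.wt a ᵥ* D.A.adjugate) i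

/-- the height of a degree -/
def hd (γ : D.Q) : ℤ := D.A.det ^ 2 * ∑ i, γ i

/-- matrices of degree `γ` -/
def Dg (k : Type) [CommRing k] (γ : D.Q) : Submodule k (D.Mat k) :=
  Sp k fun a b => D.wt a = D.wt b + γ ᵥ* D.A

/-- matrices that raise the height by at least `j` -/
def Fl (k : Type) [CommRing k] (j : ℤ) : Submodule k (D.Mat k) :=
  Sp k fun a b => D.ht b + j ≤ D.ht a

/-- the component of degree `γ` -/
def cp (γ : D.Q) : D.Mat k →ₗ[k] D.Mat k where
  toFun M := Matrix.of fun a b => if D.wt a = D.wt b + γ ᵥ* D.A then M a b else 0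
  map_add' M N := by ext a b; simp only [of_apply, Matrix.add_apply]; split_ifs <;> simp
  map_smul' c M := by ext a b; simp

/-- the Lie algebra as a space of matrices -/
def g : Submodule ℂ (D.Mat ℂ) := LinearMap.range D.φ

variable {D} {γ δ : D.Q} {M N : D.Mat k} {i j : ℤ}

lemma det_ne : D.A.det ≠ 0 := D.b.nondegen.det_ne_zero

lemma pr_inj (h : γ ᵥ* D.A = δ ᵥ* D.A) : γ = δ :=
  sub_eq_zero.1 (eq_zero_of_vecMul_eq_zero det_ne (by rw [sub_vecMul, h, sub_self]))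

lemma ht_eq {a b : Fin D.n} (h : D.wt a = D.wt b + γ ᵥ* D.A) : D.ht a = D.ht b + D.hd γ := by
  unfold ht hd
  rw [h, add_vecMul, vecMul_vecMul, mul_adjugate]
  simp [sum_add_distrib, mul_add, vecMul_smul, ← mul_sum, sq, mul_assoc]

lemma hd_add (γ δ : D.Q) : D.hd (γ + δ) = D.hd γ + D.hd δ := by
  simp [hd, sum_add_distrib, mul_add]

lemma hd_smul (m : ℤ) (γ : D.Q) : D.hd (m • γ) = m * D.hd γ := by
  simp [hd, ← mul_sum, mul_left_comm]

lemma hd_pos (h : 0 ≤ γ) (h0 : γ ≠ 0) : 0 < D.hd γ := by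
  obtain ⟨i, hi⟩ := Function.ne_iff.1 h0
  exact mul_pos (sq_pos_of_ne_zero det_ne)
    (sum_pos' (fun i _ => h i) ⟨i, mem_univ _, (h i).lt_of_ne' hi⟩)

lemma Dg.mul (h : M ∈ D.Dg k γ) (h' : N ∈ D.Dg k δ) : M * N ∈ D.Dg k (γ + δ) :=
  Sp.mul h h' fun a b c e e' => by rw [e, e', add_vecMul]; abel

lemma Dg.lie (h : M ∈ D.Dg k γ) (h' : N ∈ D.Dg k δ) : ⁅M, N⁆ ∈ D.Dg k (γ + δ) :=
  sub_mem (Dg.mul h h') (add_comm δ γ ▸ Dg.mul h' h)

lemma Dg.one : (1 : D.Mat k) ∈ D.Dg k 0 := Sp.one fun a => by simp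

lemma Dg.pow (h : M ∈ D.Dg k γ) (m : ℕ) : M ^ m ∈ D.Dg k ((m : ℤ) • γ) := by
  induction m with
  | zero => simpa using Dg.one
  | succ m ih => simpa [pow_succ, add_smul] using Dg.mul ih h

lemma Dg.nil (h : M ∈ D.Dg k γ) (h0 : γ ≠ 0) : IsNilpotent M := by
  by_contra hn
  have : ∀ m : ℕ, ∃ x : Fin D.n × Fin D.n, D.wt x.1 = D.wt x.2 + ((m : ℤ) • γ) ᵥ* D.A := fun m => by
    by_contra hm
    exact hn ⟨m, Matrix.ext fun a b => by_contra fun e => hm ⟨(a, b), Dg.pow h m a b e⟩⟩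
  choose f hf using this
  refine not_injective_infinite_finite f fun a b e => ?_
  have := pr_inj (add_left_cancel ((hf a).symm.trans (e ▸ hf b)))
  exact_mod_cast smul_left_injective ℤ h0 this

lemma Dg.fl (h : M ∈ D.Dg k γ) (hj : j ≤ D.hd γ) : M ∈ D.Fl k j :=
  Sp.mono h fun a b e => by have := ht_eq e; omega

lemma Fl.mul (h : M ∈ D.Fl k i) (h' : N ∈ D.Fl k j) : M * N ∈ D.Fl k (i + j) :=
  Sp.mul h h' fun a b c e e' => by omega

lemma Fl.mono (h : M ∈ D.Fl k i) (hj : j ≤ i) : M ∈ D.Fl k j := Sp.mono h fun a b e => by omega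

lemma cp_apply (γ : D.Q) (M : D.Mat k) (a b : Fin D.n) :
    D.cp γ M a b = if D.wt a = D.wt b + γ ᵥ* D.A then M a b else 0 := rfl

lemma cp_self (h : M ∈ D.Dg k γ) : D.cp γ M = M := by
  ext a b
  rw [cp_apply]
  split_ifs with e
  · rfl
  · exact (not_not.1 (mt (h a b) e)).symm

lemma cp_ne (h : M ∈ D.Dg k γ) (hne : γ ≠ δ) : D.cp δ M = 0 := by
  ext a b
  rw [cp_apply]
  split_ifs with e
  · by_contra e'
    exact hne (pr_inj (add_left_cancel ((h a b e').symm.trans e)))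
  · rfl

lemma cp_fl (h : M ∈ D.Fl k j) (hj : D.hd γ < j) : D.cp γ M = 0 := by
  ext a b
  rw [cp_apply]
  split_ifs with e
  · by_contra e'
    have : D.ht b + j ≤ D.ht a := h a b e'
    have := ht_eq e
    omega
  · rfl

lemma cp_map {k' : Type} [CommRing k'] (f : k →+* k') (γ : D.Q) (M : D.Mat k) :
    (D.cp γ M).map f = D.cp γ (M.map f) := by
  ext a b
  simp only [map_apply, cp_apply]
  split_ifs <;> simp

lemma DP_dg {E : ℕ → D.Mat ℤ} (h : DP E) (h1 : E 1 ∈ D.Dg ℤ γ) (m : ℕ) :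
    ct k (E m) ∈ D.Dg k ((m : ℤ) • γ) := by
  refine Sp.map _ fun a b e => Dg.pow h1 m a b ?_
  rw [h.pow, Matrix.smul_apply]
  exact smul_ne_zero m.factorial_ne_zero e

lemma lie_mem_g {M N : D.Mat ℂ} (h : M ∈ D.g) (h' : N ∈ D.g) : ⁅M, N⁆ ∈ D.g := by
  obtain ⟨x, rfl⟩ := h
  obtain ⟨y, rfl⟩ := h'
  exact ⟨_, D.lie x y⟩

end Chev

end Vale.Agent.P183CH
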