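import Vale.Agent.P183CH1.Base

/-!
The grading of the Lie algebra, the elements `n_i`, root triples.
-/

set_option autoImplicit false
set_option linter.all false

namespace Vale.Agent.P183CH

open Matrix Finset

attribute [local instance 100] LieRing.ofAssociativeRing

namespace Chev

variable (D : Chev) {k : Type} [CommRing k]

/-- simple roots -/
def α (i : Fin D.r) : D.Q := Pi.single i 1

/-- simple reflections -/
def s (i : Fin D.r) (γ : D.Q) : D.Q := γ - (γ ᵥ* D.A) i • D.α i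

/-- simple reflections on weights -/
def sw (i : Fin D.r) (w : D.Q) : D.Q := w - w i • (D.α i ᵥ* D.A)

/-- the diagonal matrices `h_i` -/
def hm (i : Fin D.r) : D.Mat ℤ := diagonal (D.μ i)

/-- `γ` is a root -/
def IsRt (γ : D.Q) : Prop := γ ≠ 0 ∧ ∃ M ∈ D.g, M ≠ 0 ∧ M ∈ D.Dg ℂ γ

/-- a root vector with its divided powers -/
structure RH (γ : D.Q) (E : ℕ → D.Mat ℤ) : Prop where
  ne : γ ≠ 0
  dp : DP E
  g : ct ℂ (E 1) ∈ D.g
  dg : E 1 ∈ D.Dg ℤ γ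
  prim : Prim (E 1)
  one : ∀ M ∈ D.g, M ∈ D.Dg ℂ γ → ∃ c : ℂ, M = c • ct ℂ (E 1)
  x : ∀ (k : Type) [Field k] (t : k), dp.exU t ∈ D.grp k

/-- a root triple -/
def RT (γ : D.Q) (E F : ℕ → D.Mat ℤ) : Prop := D.RH γ E ∧ D.RH (-γ) F ∧ 0 < trace (E 1 * F 1)

variable {D} {γ δ : D.Q} {i j : Fin D.r} {E F E' F' : ℕ → D.Mat ℤ}

lemma RT.symm (h : D.RT γ E F) : D.RT (-γ) F E :=
  ⟨h.2.1, by simpa using h.1, trace_mul_comm (E 1) _ ▸ h.2.2⟩

lemma α_pr (i j : Fin D.r) : (D.α i ᵥ* D.A) j = D.A i j := by simp [α]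

lemma α_ne (i : Fin D.r) : D.α i ≠ 0 := by simp [α]

lemma φ_h (i : Fin D.r) : D.φ (D.b.h i) = ct ℂ (D.hm i) := by
  rw [D.h_eq, hm, RingHom.mapMatrix_apply, diagonal_map (map_zero _)]
  rfl

lemma φ_e (i : Fin D.r) : D.φ (D.b.e i) = ct ℂ (D.E i 1) := by simpa using D.e_pow i 1

lemma φ_f (i : Fin D.r) : D.φ (D.b.f i) = ct ℂ (D.F i 1) := by simpa using D.f_pow i 1

lemma φ_lie (u v : D.L) : D.φ ⁅u, v⁆ = ⁅D.φ u, D.φ v⁆ := D.lie u v

lemma ct_lie (M N : D.Mat ℤ) : ct k ⁅M, N⁆ = ⁅ct k M, ct k N⁆ := by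
  rw [Ring.lie_def, Ring.lie_def, map_sub, map_mul, map_mul]

lemma Dg.ct {M : D.Mat ℤ} (h : M ∈ D.Dg ℤ γ) : ct k M ∈ D.Dg k γ := Sp.map _ h

lemma he (i j : Fin D.r) : ⁅D.hm j, D.E i 1⁆ = D.A i j • D.E i 1 := ct_inj (k := ℂ) (by
  rw [ct_lie, map_zsmul, ← φ_h, ← φ_e, ← φ_lie, D.b.lie_h_e, map_zsmul])

lemma hf (i j : Fin D.r) : ⁅D.hm j, D.F i 1⁆ = -D.A i j • D.F i 1 := ct_inj (k := ℂ) (by
  rw [ct_lie, map_zsmul, ← φ_h, ← φ_f, ← φ_lie, D.b.lie_h_f, map_zsmul])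

lemma ef (i : Fin D.r) : ⁅D.E i 1, D.F i 1⁆ = D.hm i := ct_inj (k := ℂ) (by
  rw [ct_lie, ← φ_h, ← φ_e, ← φ_f, ← φ_lie, (D.b.sl2 i).lie_e_f])

lemma dg_of {M : D.Mat ℤ} (h : ∀ j, ⁅D.hm j, M⁆ = (γ ᵥ* D.A) j • M) : M ∈ D.Dg ℤ γ := fun a b e => by
  ext j
  have := congrFun (congrFun (h j) a) b
  simp only [Ring.lie_def, hm, Matrix.sub_apply, diagonal_mul, mul_diagonal, Matrix.smul_apply,
    smul_eq_mul] at this
  exact mul_right_cancel₀ e (by simp only [wt, Pi.add_apply]; linear_combination this)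

lemma lie_of_dg {M : D.Mat k} (h : M ∈ D.Dg k γ) (j : Fin D.r) :
    ⁅ct k (D.hm j), M⁆ = (γ ᵥ* D.A) j • M := by
  ext a b
  rw [hm, RingHom.mapMatrix_apply, diagonal_map (map_zero _)]
  simp only [Ring.lie_def, Matrix.sub_apply, diagonal_mul, mul_diagonal, Matrix.smul_apply]
  by_cases e : M a b = 0
  · simp [e]
  · rw [show D.μ j a = D.μ j b + (γ ᵥ* D.A) j from congrFun (h a b e) j]
    simp only [eq_intCast, Int.cast_add, zsmul_eq_mul]
    ring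

lemma dg_e (i : Fin D.r) : D.E i 1 ∈ D.Dg ℤ (D.α i) := dg_of fun j => by rw [he, α_pr]

lemma dg_f (i : Fin D.r) : D.F i 1 ∈ D.Dg ℤ (-D.α i) := dg_of fun j => by
  rw [hf, neg_vecMul, Pi.neg_apply, α_pr]

lemma dg_h (i : Fin D.r) : D.hm i ∈ D.Dg ℤ 0 := dg_of fun j => by simp [hm, Ring.lie_def, mul_comm]

lemma dp_e (i : Fin D.r) : DP (D.E i) :=
  ⟨fun m => ct_inj (k := ℂ) (by rw [map_pow, ← φ_e, D.e_pow, map_nsmul]; rfl),
    pow_card (Dg.nil (dg_e i) (α_ne i))⟩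

lemma dp_f (i : Fin D.r) : DP (D.F i) :=
  ⟨fun m => ct_inj (k := ℂ) (by rw [map_pow, ← φ_f, D.f_pow, map_nsmul]; rfl),
    pow_card (Dg.nil (dg_f i) (neg_ne_zero.2 (α_ne i)))⟩

lemma diag (i : Fin D.r) : D.A i i = 2 := by
  have : IsAddTorsionFree D.L := .of_isTorsionFree ℂ D.L
  exact D.b.A_diag_eq_two i

lemma exists_e (i : Fin D.r) : ∃ a b, D.wt a = D.wt b + D.α i ᵥ* D.A := by
  by_contra hn
  refine (D.b.sl2 i).e_ne_zero (D.inj ?_)
  rw [φ_e, map_zero]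
  exact Matrix.ext fun a b => by_contra fun e => hn ⟨a, b, Sp.map _ (dg_e i) a b e⟩

variable (D) in
/-- homogeneous generators -/
def Gn (δ : D.Q) (N : D.Mat ℂ) : Prop :=
  N ∈ D.Dg ℂ δ ∧ (δ = 0 ∨ (∃ i, δ = D.α i ∧ N = ct ℂ (D.E i 1)) ∨
    (∃ i, δ = -D.α i ∧ N = ct ℂ (D.F i 1)) ∨ ((0 ≤ δ ∨ δ ≤ 0) ∧ ∀ i (m : ℤ), δ ≠ m • D.α i))

lemma span_half (v : Fin D.r → D.L) (ε : ℤˣ) (hv : ∀ i, D.φ (v i) ∈ D.Dg ℂ (ε • D.α i)) {x : D.L}
    (hx : x ∈ LieSubalgebra.lieSpan ℂ D.L (Set.range v)) :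
    D.φ x ∈ Submodule.span ℂ {N | ∃ δ, 0 ≤ δ ∧ N ∈ D.Dg ℂ (ε • δ) ∧
      ((∃ i, δ = D.α i ∧ N = D.φ (v i)) ∨ ∀ i (m : ℤ), δ ≠ m • D.α i)} := by
  induction hx using LieSubalgebra.lieSpan_induction with
  | mem u hu =>
    obtain ⟨i, rfl⟩ := hu
    exact Submodule.subset_span ⟨_, Pi.single_nonneg.2 zero_le_one, hv i, Or.inl ⟨i, rfl, rfl⟩⟩
  | zero => simp
  | add u v _ _ hu hv => rw [map_add]; exact add_mem hu hv
  | smul t u _ hu => rw [map_smul]; exact Submodule.smul_mem _ _ hu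
  | lie u w _ _ hu hw =>
    rw [φ_lie]
    refine Submodule.span_induction₂ (p := fun M N _ _ => ⁅M, N⁆ ∈ _) ?_ (by simp) (by simp)
      (fun _ _ _ _ _ _ h1 h2 => by rw [add_lie]; exact add_mem h1 h2)
      (fun _ _ _ _ _ _ h1 h2 => by rw [lie_add]; exact add_mem h1 h2)
      (fun _ _ _ _ _ h1 => by rw [smul_lie]; exact Submodule.smul_mem _ _ h1)
      (fun _ _ _ _ _ h1 => by rw [lie_smul]; exact Submodule.smul_mem _ _ h1) hu hw
    rintro M N ⟨γ, a1, a2, a3⟩ ⟨δ, b1, b2, b3⟩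
    by_cases hc : ∃ i, ∃ m : ℤ, γ + δ = m • D.α i
    · obtain ⟨i, m, e⟩ := hc
      have k : ∀ γ δ : D.Q, 0 ≤ γ → 0 ≤ δ → γ + δ = m • D.α i → γ = γ i • D.α i := by
        intro γ δ h1 h2 e
        ext j
        have := congrFun e j
        have h1 : 0 ≤ γ j := h1 j
        have h2 : 0 ≤ δ j := h2 j
        by_cases hj : j = i
        · simp [hj, α]
        · simp [α, hj] at this ⊢
          omega
      have k' : ∀ {γ : D.Q} {j}, γ = D.α j → γ = γ i • D.α i → j = i := fun {γ j} e1 e2 => by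
        by_contra hn
        simpa [α, hn] using congrFun (e1.symm.trans e2) j
      have e1 := k γ δ a1 b1 e
      have e2 := k δ γ b1 a1 (add_comm γ δ ▸ e)
      obtain ⟨j, c1, rfl⟩ := a3.resolve_right fun h => h i _ e1
      obtain ⟨j', c2, rfl⟩ := b3.resolve_right fun h => h i _ e2
      rw [k' c1 e1, k' c2 e2, lie_self]
      exact zero_mem _
    · push Not at hc
      exact Submodule.subset_span ⟨γ + δ, add_nonneg a1 b1, smul_add ε γ δ ▸ Dg.lie a2 b2, Or.inr hc⟩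

lemma struct {M : D.Mat ℂ} (hM : M ∈ D.g) (h : M ∈ D.Dg ℂ γ) (W : Submodule ℂ (D.Mat ℂ))
    (hW : ∀ N, D.Gn γ N → N ∈ W) : M ∈ W := by
  have : M ∈ Submodule.span ℂ {N | ∃ δ, D.Gn δ N} := by
    obtain ⟨x, rfl⟩ := hM
    have h1 := D.b.iSup_cartan_borelLower_borelUpper_eq_top
    obtain ⟨yc, hyc, yl, hyl, yu, hyu, rfl⟩ : ∃ᵉ (yc ∈ D.H)
        (yl ∈ LieSubalgebra.lieSpan ℂ D.L (Set.range D.b.f))
        (yu ∈ LieSubalgebra.lieSpan ℂ D.L (Set.range D.b.e)), yc + yl + yu = x := by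
      have : x ∈ D.H.toLieSubmodule ⊔ D.b.borelLower ⊔ D.b.borelUpper := by
        rw [show D.H.toLieSubmodule ⊔ D.b.borelLower ⊔ D.b.borelUpper = ⊤ by simpa using h1]
        trivial
      simpa [LieSubmodule.mem_sup] using! this
    rw [map_add, map_add]
    refine add_mem (add_mem ?_ ?_) ?_
    · rw [← LieSubalgebra.mem_toSubmodule, D.b.coe_cartan_eq_span] at hyc
      refine Submodule.subset_span ⟨0, ?_, Or.inl rfl⟩
      refine (Submodule.span_le (p := (D.Dg ℂ 0).comap D.φ)).2 ?_ hyc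
      rintro _ ⟨i, rfl⟩
      show D.φ _ ∈ D.Dg ℂ 0
      rw [φ_h]
      exact Dg.ct (dg_h i)
    · refine Submodule.span_mono ?_ (span_half _ (-1) (fun i => by
        rw [φ_f, Units.neg_smul, one_smul]; exact Dg.ct (dg_f i)) hyl)
      rintro N ⟨δ, a1, a2, a3⟩
      refine ⟨-δ, by simpa using a2, Or.inr (Or.inr (a3.imp ?_ fun h => ⟨Or.inr (neg_nonpos.2 a1),
        fun i m e => h i (-m) (by rw [neg_smul, ← e, neg_neg])⟩))⟩
      rintro ⟨i, rfl, rfl⟩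
      exact ⟨i, rfl, φ_f i⟩
    · refine Submodule.span_mono ?_ (span_half _ 1 (fun i => by
        rw [φ_e, one_smul]; exact Dg.ct (dg_e i)) hyu)
      rintro N ⟨δ, a1, a2, a3⟩
      refine ⟨δ, by simpa using a2, Or.inr (a3.imp ?_ fun h => Or.inr ⟨Or.inl a1, h⟩)⟩
      rintro ⟨i, rfl, rfl⟩
      exact ⟨i, rfl, φ_e i⟩
  rw [← cp_self h]
  refine (Submodule.span_le (p := W.comap (D.cp γ))).2 ?_ this
  rintro N ⟨δ, hN⟩
  show D.cp γ N ∈ W
  by_cases e : δ = γ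
  · subst e
    rw [cp_self hN.1]
    exact hW N hN
  · rw [cp_ne hN.1 e]
    exact zero_mem _

lemma IsRt.cases (h : D.IsRt γ) : (∃ i, γ = D.α i ∨ γ = -D.α i) ∨
    ((0 ≤ γ ∨ γ ≤ 0) ∧ ∀ i (m : ℤ), γ ≠ m • D.α i) := by
  obtain ⟨h0, M, h1, h2, h3⟩ := h
  by_contra hn
  refine h2 (struct h1 h3 ⊥ fun N hN => (hn ?_).elim)
  rcases hN.2 with e | ⟨i, e, -⟩ | ⟨i, e, -⟩ | e
  · exact absurd e h0
  · exact Or.inl ⟨i, Or.inl e⟩
  · exact Or.inl ⟨i, Or.inr e⟩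
  · exact Or.inr e

lemma α_nonneg (i : Fin D.r) : 0 ≤ D.α i := Pi.single_nonneg.2 zero_le_one

lemma IsRt.sign (h : D.IsRt γ) : 0 ≤ γ ∨ γ ≤ 0 := by
  rcases h.cases with ⟨i, rfl | rfl⟩ | e
  · exact Or.inl (α_nonneg i)
  · exact Or.inr (neg_nonpos.2 (α_nonneg i))
  · exact e.1

lemma α_smul_inj {m m' : ℤ} (hm : m ≠ 0) (e : m • D.α i = m' • D.α j) : i = j ∧ m = m' := by
  have := congrFun e i
  by_cases h : i = j
  · exact ⟨h, by simpa [α, h] using this⟩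
  · simp [α, h, hm] at this

lemma IsRt.red {m : ℤ} (h : D.IsRt (m • D.α i)) : m = 1 ∨ m = -1 := by
  have hm : m ≠ 0 := fun e => h.1 (by simp [e])
  rcases h.cases with ⟨j, e | e⟩ | e
  · exact Or.inl (α_smul_inj hm (e.trans (one_smul _ _).symm)).2
  · exact Or.inr (α_smul_inj hm (e.trans (neg_one_smul _ _).symm)).2
  · exact absurd rfl (e.2 i m)

lemma tr_hh (i j : Fin D.r) : ∑ a, D.μ j a * D.μ i a = D.A i j * trace (D.E i 1 * D.F i 1) := by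
  have : trace (D.hm j * ⁅D.E i 1, D.F i 1⁆) = trace (⁅D.hm j, D.E i 1⁆ * D.F i 1) := by
    simp only [Ring.lie_def, mul_sub, sub_mul, trace_sub, mul_assoc]
    rw [trace_mul_comm (D.E i 1), mul_assoc]
  rw [ef, he, smul_mul_assoc, trace_smul] at this
  simpa [hm] using this

lemma tr_pos (i : Fin D.r) : 0 < trace (D.E i 1 * D.F i 1) := by
  have h1 := tr_hh (D := D) i i
  obtain ⟨a, b, e⟩ := exists_e (D := D) i
  have e : D.μ i a = D.μ i b + 2 := by simpa [wt, α_pr, diag] using congrFun e i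
  have : 0 < ∑ a, D.μ i a * D.μ i a := sum_pos' (fun a _ => mul_self_nonneg _) (by
    by_cases h : D.μ i a = 0
    · exact ⟨b, mem_univ _, mul_self_pos.2 (by omega)⟩
    · exact ⟨a, mem_univ _, mul_self_pos.2 h⟩)
  rw [diag] at h1
  omega

lemma exists_pos (h : γ ≠ 0) : ∃ i, 0 < γ i * (γ ᵥ* D.A) i := by
  by_contra hn
  push Not at hn
  let d : Fin D.r → ℚ := fun i => ((trace (D.E i 1 * D.F i 1) : ℤ) : ℚ)
  have hd : ∀ i, 0 < d i := fun i => Int.cast_pos.2 (tr_pos i)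
  let c : Fin D.r → ℚ := fun i => γ i / d i
  have h1 : ∑ a, (∑ j, c j * D.μ j a) ^ 2 = ∑ j, (γ j * (γ ᵥ* D.A) j : ℤ) / d j := by
    simp only [sq, sum_mul_sum]
    rw [sum_comm]
    refine sum_congr rfl fun j _ => ?_
    rw [sum_comm, vecMul, dotProduct, mul_sum, Int.cast_sum, div_eq_mul_inv, sum_mul]
    refine sum_congr rfl fun i _ => ?_
    have := congrArg (Int.cast : ℤ → ℚ) (tr_hh (D := D) i j)
    push_cast at this ⊢
    rw [show ∑ a, c j * D.μ j a * (c i * D.μ i a) = c j * c i * ∑ a, (D.μ j a * D.μ i a : ℚ) by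
      rw [mul_sum]; exact sum_congr rfl fun a _ => by ring, this]
    have := (hd i).ne'
    simp only [c]
    change _ * _ * (_ * d i) = _
    field_simp
  have h2 := (sum_eq_zero_iff_of_nonneg fun a _ => sq_nonneg (∑ j, c j * D.μ j a)).1
    (le_antisymm (h1 ▸ sum_nonpos fun j _ =>
      div_nonpos_of_nonpos_of_nonneg (Int.cast_nonpos.2 (hn j)) (hd j).le)
      (sum_nonneg fun a _ => sq_nonneg _))
  have h3 : (Int.castRingHom ℚ).mapMatrix D.A *ᵥ c = 0 := funext fun i => by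
    obtain ⟨a, b, e⟩ := exists_e (D := D) i
    have e1 := pow_eq_zero_iff two_ne_zero |>.1 (h2 a (mem_univ _))
    have e2 := pow_eq_zero_iff two_ne_zero |>.1 (h2 b (mem_univ _))
    rw [Pi.zero_apply, ← sub_eq_zero.2 (e1.trans e2.symm), ← sum_sub_distrib]
    show ∑ j, (D.A i j : ℚ) * c j = _
    refine sum_congr rfl fun j _ => ?_
    rw [show D.μ j a = D.μ j b + D.A i j by simpa [wt, α_pr] using congrFun e j]
    push_cast
    ring
  have h4 := eq_zero_of_mulVec_eq_zero (by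
    rw [← RingHom.map_det]; exact Int.cast_ne_zero.2 det_ne) h3
  exact h (funext fun i => by simpa [c, (hd i).ne'] using congrFun h4 i)

end Chev

end Vale.Agent.P183CH
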